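import Vale.Agent.P181.O2.H564.Mem
import Vale.Agent.P181.TL.H214.UpB
import Vale.Agent.P181.SZR4.Few

set_option autoImplicit false

/-!
# P181, O2 (B1): sort by the degrees in row two

The coefficient of a monomial in the variables of the first row is a highest weight polynomial in
the other rows, invariant under the permutations which preserve the pairs (degree in the first
row, degree in the other rows). One monomial for each multiset of pairs determines the polynomial.
-/

open MvPolynomial

namespace Vale.Agent.P181.O2.H752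

open Vale.Agent.P181.T4 (HW)
open Vale.Agent.P181.SZ (nn PT PK tl)
open Vale.Agent.P181.SZ.R1b (pm pm_apply pm_apply' pm_pm_symm coeff_pm pinj
  exists_perm_of_map_eq)
open Vale.Agent.P181.SZR4 (vm vm_injective ren_mem_HW coeff_ren)
open Vale.Agent.P181.TL.H214 (cf coeff_cf cf_mem ins rs r0 ins_zero ins_succ ins_rs)

/-- Two families with the same multiset of values. -/
lemma exists_equiv_of_map_eq {ι κ α : Type} [Fintype ι] [Fintype κ] (f : ι → α) (g : κ → α)
    (h : Finset.univ.val.map f = Finset.univ.val.map g) : ∃ e : κ ≃ ι, ∀ j, f (e j) = g j := by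
  classical
  have hc : Fintype.card κ = Fintype.card ι := by
    have h1 := congrArg Multiset.card h
    rw [Multiset.card_map, Multiset.card_map] at h1
    exact h1.symm
  let e0 : κ ≃ ι := Fintype.equivOfCardEq hc
  have h2 : Finset.univ.val.map (f ∘ e0) = Finset.univ.val.map g := by
    rw [← Multiset.map_map]
    have h3 : (Finset.univ : Finset κ).val.map e0 = (Finset.univ : Finset ι).val := by
      have := congrArg Finset.val (Finset.map_univ_equiv e0)
      rw [← this]
      rfl
    rw [h3, h]
  obtain ⟨τ, hτ⟩ := exists_perm_of_map_eq (f ∘ e0) g h2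
  exact ⟨τ.trans e0, fun j => (congrFun hτ j).symm⟩

lemma map_get {α : Type} (L : List α) :
    (Finset.univ : Finset (Fin L.length)).val.map L.get = (L : Multiset α) := by
  have h3 : (Finset.univ : Finset (Fin L.length)).val =
      ((List.finRange L.length : List _) : Multiset _) := rfl
  rw [h3, Multiset.map_coe]
  congr 1
  apply List.ext_getElem
  · rw [List.length_map, List.length_finRange]
  · intro i h4 h5
    rw [List.getElem_map, List.getElem_finRange]
    rfl

/-- Transport along an equivalence of the columns. -/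
lemma finrank_le_cc {n : ℕ} {σ : Type} [Fintype σ] (U : Multiset (ℕ × ℕ)) (tau : Fin n → ℕ)
    (e : σ ≃ Fin U.toList.length) :
    Module.finrank ℂ (PL n σ (fun j => U.toList.get (e j)) tau) ≤ cc n tau U := by
  classical
  let R : PL n σ (fun j => U.toList.get (e j)) tau →ₗ[ℂ]
      PL n (Fin U.toList.length) (fun j => U.toList.get j) tau :=
    ((rename (vm n e)).toLinearMap.comp (Submodule.subtype _)).codRestrict _ (by
      rintro ⟨f, hf1, hf2, hf3⟩
      change rename (vm n e) f ∈ PL n (Fin U.toList.length) (fun j => U.toList.get j) tau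
      refine ⟨ren_mem_HW e.injective hf1, fun v hv j => ?_, fun π hπ => ?_⟩
      · obtain ⟨u, hu, h1, _⟩ := coeff_ren e.injective hv
        obtain ⟨j, rfl⟩ := e.surjective j
        rw [← hf2 u hu j]
        exact Finset.sum_congr rfl fun i _ => h1 i j
      · have h1 := hf3 ((e.trans π).trans e.symm) (fun j => by
          change U.toList.get (e (e.symm (π (e j)))) = U.toList.get (e j)
          rw [e.apply_symm_apply]
          exact hπ (e j))
        conv_rhs => rw [← h1]
        rw [rename_rename, rename_rename]
        have h2 : (fun p : Fin n × Fin U.toList.length => (p.1, π p.2)) ∘ vm n e =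
            vm n e ∘ fun p : Fin n × σ => (p.1, ((e.trans π).trans e.symm) p.2) := by
          funext p
          change (p.1, π (e p.2)) = (p.1, e (e.symm (π (e p.2))))
          rw [e.apply_symm_apply]
        rw [h2])
  have hR : Function.Injective R := by
    intro f g h
    apply Subtype.ext
    exact rename_injective _ (vm_injective e.injective) (congrArg Subtype.val h)
  have : FiniteDimensional ℂ (PL n (Fin U.toList.length) (fun j => U.toList.get j) tau) :=
    Submodule.finiteDimensional_of_le (fun _ hf => hf.1 :
      PL n (Fin U.toList.length) (fun j => U.toList.get j) tau ≤ HW n _ tau)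
  exact LinearMap.finrank_le_finrank_of_injective hR

/-- The coefficient is in the space of the coloured columns. -/
lemma cf_mem_PL {m : ℕ} {σ : Type} [Fintype σ] {d : σ → ℕ} {mu : Fin (m + 1) → ℕ}
    {f : MvPolynomial (Fin (m + 1) × σ) ℂ} (hf : f ∈ PK (m + 1) σ d mu) (l : σ → ℕ × ℕ)
    (hl : ∀ j, (l j).1 + (l j).2 = d j) :
    cf (fun j => (l j).1) f ∈ PL m σ l (tl mu) := by
  obtain ⟨hf1, hf2, hf3⟩ := hf
  refine ⟨cf_mem hf1 _, fun v hv j => ?_, fun e he => ?_⟩
  · rw [coeff_cf] at hv
    have h1 := hf2 _ hv j
    rw [Fin.sum_univ_succ, ins_zero] at h1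
    simp only [ins_succ] at h1
    have h2 := hl j
    omega
  · apply MvPolynomial.ext
    intro v
    have h1 := coeff_pm e (cf (fun j => (l j).1) f) (pm e.symm v)
    rw [pm_pm_symm] at h1
    rw [h1, coeff_cf, coeff_cf]
    have h2 := coeff_pm e f (ins (fun j => (l j).1) (pm e.symm v))
    rw [hf3 e (fun j => by rw [← hl, ← hl, he])] at h2
    rw [← h2]
    congr 1
    ext ⟨i, j⟩
    rw [pm_apply']
    refine Fin.cases ?_ (fun i => ?_) i
    · rw [ins_zero, ins_zero]
      have h3 := he (e.symm j)
      rw [e.apply_symm_apply] at h3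
      rw [h3]
    · rw [ins_succ, ins_succ, pm_apply', Equiv.symm_symm, e.apply_symm_apply]

open scoped Classical in
/-- **(B1)** product model, upper bound. -/
theorem prodUp : ProdUp := by
  intro m mu K hK
  set S := (US (mu 0) (∑ i, tl mu i)).filter (fun U => szs U = K) with hS
  let σ := Fin K.toList.length
  let kk : σ → ℕ := fun j => K.toList.get j
  have hkk : Finset.univ.val.map kk = K := by
    have h := map_get K.toList
    rw [Multiset.coe_toList] at h
    exact h
  have hkpos : ∀ j, 0 < kk j := fun j => hK _ (Multiset.mem_toList.1 (List.get_mem _ _))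
  have hex : ∀ U : S, ∃ e : σ ≃ Fin (U : Multiset (ℕ × ℕ)).toList.length,
      ∀ j, ((U : Multiset (ℕ × ℕ)).toList.get (e j)).1 +
        ((U : Multiset (ℕ × ℕ)).toList.get (e j)).2 = kk j := by
    intro U
    have hU : szs (U : Multiset (ℕ × ℕ)) = K := (Finset.mem_filter.1 U.2).2
    apply exists_equiv_of_map_eq (fun j : Fin (U : Multiset (ℕ × ℕ)).toList.length =>
      ((U : Multiset (ℕ × ℕ)).toList.get j).1 + ((U : Multiset (ℕ × ℕ)).toList.get j).2) kk
    rw [hkk, ← hU]
    have h := map_get (U : Multiset (ℕ × ℕ)).toList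
    rw [Multiset.coe_toList] at h
    conv_rhs => rw [← h]
    change _ = Multiset.map (fun p : ℕ × ℕ => p.1 + p.2) _
    rw [Multiset.map_map]
    rfl
  choose e he using hex
  let l : S → σ → ℕ × ℕ := fun U j => (U : Multiset (ℕ × ℕ)).toList.get (e U j)
  have hlU : ∀ U : S, Finset.univ.val.map (l U) = (U : Multiset (ℕ × ℕ)) := by
    intro U
    have h := map_get (U : Multiset (ℕ × ℕ)).toList
    rw [Multiset.coe_toList] at h
    conv_rhs => rw [← h]
    have h3 : (Finset.univ : Finset σ).val.map (e U) = (Finset.univ : Finset _).val := by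
      have := congrArg Finset.val (Finset.map_univ_equiv (e U))
      rw [← this]
      rfl
    rw [← h3, Multiset.map_map]
    rfl
  let Φ : PK (m + 1) σ kk mu →ₗ[ℂ] (∀ U : S, PL m σ (l U) (tl mu)) :=
    LinearMap.pi fun U => ((cf (fun j => (l U j).1)).comp
      (PK (m + 1) σ kk mu).subtype).codRestrict _ fun f => cf_mem_PL f.2 (l U) (he U)
  have hΦ : Function.Injective Φ := by
    rw [← LinearMap.ker_eq_bot, LinearMap.ker_eq_bot']
    rintro ⟨f, hf⟩ h
    apply Subtype.ext
    change f = 0
    have h5 : ∀ U : S, cf (fun j => (l U j).1) f = 0 := fun U =>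
      congrArg Subtype.val (congrFun h U)
    obtain ⟨h1, h2, h3⟩ := hf
    apply MvPolynomial.ext
    intro v
    rw [coeff_zero]
    by_contra hv
    -- the pairs of `v`
    let L : σ → ℕ × ℕ := fun j => (v (0, j), ∑ i : Fin m, v (i.succ, j))
    have hL : ∀ j, (L j).1 + (L j).2 = kk j := by
      intro j
      have h6 := h2 v hv j
      rw [Fin.sum_univ_succ] at h6
      exact h6
    have hUS : Finset.univ.val.map L ∈ S := by
      rw [hS, Finset.mem_filter, H564.mem_US]
      refine ⟨⟨?_, ?_, ?_⟩, ?_⟩
      · intro h0
        obtain ⟨j, _, hj⟩ := Multiset.mem_map.1 h0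
        have h6 := hL j
        have h7 := hkpos j
        rw [hj] at h6
        omega
      · rw [Multiset.map_map]
        exact h1.1 v hv 0
      · rw [Multiset.map_map]
        change ∑ j, ∑ i : Fin m, v (i.succ, j) = _
        rw [Finset.sum_comm]
        exact Finset.sum_congr rfl fun i _ => h1.1 v hv i.succ
      · change Multiset.map (fun p : ℕ × ℕ => p.1 + p.2) _ = K
        rw [Multiset.map_map]
        refine Eq.trans ?_ hkk
        exact Multiset.map_congr rfl fun j _ => hL j
    let U : S := ⟨Finset.univ.val.map L, hUS⟩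
    obtain ⟨τ, hτ⟩ := exists_perm_of_map_eq L (l U) (hlU U).symm
    have hτk : ∀ j, kk (τ.symm j) = kk j := by
      intro j
      rw [← he U, ← hL j]
      have h6 := congrFun hτ (τ.symm j)
      rw [Function.comp_apply, τ.apply_symm_apply] at h6
      change (l U (τ.symm j)).1 + (l U (τ.symm j)).2 = _
      rw [h6]
    have h6 := coeff_pm τ.symm f v
    rw [h3 τ.symm hτk] at h6
    have h7 : pm τ.symm v = ins (fun j => (l U j).1) (rs (pm τ.symm v)) := by
      conv_lhs => rw [← ins_rs (pm τ.symm v)]
      congr 1
      funext j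
      rw [r0, pm_apply', Equiv.symm_symm]
      have h8 := congrFun hτ j
      rw [h8]
      rfl
    rw [h7, ← coeff_cf, h5 U, coeff_zero] at h6
    exact hv h6.symm
  have : ∀ U : S, FiniteDimensional ℂ (PL m σ (l U) (tl mu)) := fun U =>
    Submodule.finiteDimensional_of_le (fun _ hf => hf.1 :
      PL m σ (l U) (tl mu) ≤ HW m σ (tl mu))
  have h := LinearMap.finrank_le_finrank_of_injective hΦ
  rw [Module.finrank_pi_fintype] at h
  refine h.trans ?_
  rw [← Finset.sum_coe_sort S]
  exact Finset.sum_le_sum fun U _ => finrank_le_cc (U : Multiset (ℕ × ℕ)) (tl mu) (e U)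

end Vale.Agent.P181.O2.H752
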